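import Vale.Agent.P181.FLAT.H858.Glue

set_option autoImplicit false

/-!
# P181, FLAT for odd `a` (board 15403)

If the flat theorem in power form holds for forms of degree `c` in `c + 1` slots, then the power
map for `a = c + 1` is injective on all highest weight vectors of weight `lam`,
`lam i ≤ (q + 1) * c`.
-/

open scoped TensorProduct

namespace Vale.Agent.P181.FLAT.H190

open Vale.Agent.P181 Vale.Agent.P181.H280 MvPolynomial

/-- The word function of a multilinear functional. -/
noncomputable def wd {N b n : ℕ}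
    (T : MultilinearMap ℂ (fun _ : Fin N => MvPolynomial (Fin n) ℂ) ℂ)
    (w : Fin N × Fin b → Fin n) : ℂ :=
  T (fun i => ∏ j, (X (w (i, j)) : MvPolynomial (Fin n) ℂ))

/-- Killed by the symmetrisation over any `M + 1` positions. -/
def SymZ {α β : Type*} [Fintype α] [DecidableEq α] (M : ℕ) (x : (α → β) → ℂ) : Prop :=
  ∀ P : Finset α, P.card = M + 1 → ∀ w : α → β,
    ∑ σ : Equiv.Perm {p // p ∈ P}, x (w ∘ Equiv.Perm.ofSubtype σ) = 0

/-- The flat theorem in power form for functionals in `N` slots. -/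
def FlatT (c q N n : ℕ) : Prop :=
  ∀ T : MultilinearMap ℂ (fun _ : Fin N => MvPolynomial (Fin n) ℂ) ℂ, IsSymm T →
    (∀ G ∈ linS n ^ c, T (fun _ => G ^ q) = 0) →
    SymZ ((q + 1) * c) (fun w : Fin N × Fin (q * c) → Fin n => wd T w) →
    ∀ w : Fin N × Fin (q * c) → Fin n, wd T w = 0

section transport

variable {α β γ : Type*} [Fintype α] [DecidableEq α] [Fintype β] [DecidableEq β]

/-- Transport of the symmetrisation along an embedding of positions. -/
lemma SymZ.comap (M : ℕ) {x : (β → γ) → ℂ} (hx : SymZ M x) (f : α ↪ β) (P : Finset α)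
    (hP : P.card = M + 1) (w : β → γ) (y : Equiv.Perm α → (β → γ))
    (hy : ∀ σ : Equiv.Perm α, ∀ p, y σ (f p) = w (f (σ p)))
    (hy' : ∀ σ : Equiv.Perm α, ∀ r, (∀ p, f p ≠ r) → y σ r = w r) :
    ∑ σ : Equiv.Perm {p // p ∈ P}, x (y (Equiv.Perm.ofSubtype σ)) = 0 := by
  classical
  have h1 := hx (P.map f) (by rw [Finset.card_map, hP]) w
  let e : {p // p ∈ P} ≃ {r // r ∈ P.map f} := Equiv.ofBijective
    (fun p => ⟨f p, Finset.mem_map_of_mem f p.2⟩) (by
      constructor
      · intro p p' h
        exact Subtype.ext (f.injective (congrArg Subtype.val h))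
      · rintro ⟨r, hr⟩
        obtain ⟨p, hp, rfl⟩ := Finset.mem_map.1 hr
        exact ⟨⟨p, hp⟩, rfl⟩)
  rw [← h1]
  apply Fintype.sum_equiv (Equiv.permCongr e)
  intro σ
  congr 1
  funext r
  by_cases hr : ∃ p, f p = r
  · obtain ⟨p, rfl⟩ := hr
    rw [hy, Function.comp_apply]
    congr 1
    by_cases hp : p ∈ P
    · rw [Equiv.Perm.ofSubtype_apply_of_mem σ hp,
        Equiv.Perm.ofSubtype_apply_of_mem _ (Finset.mem_map_of_mem f hp)]
      rw [Equiv.permCongr_apply]
      have h2 : e.symm ⟨f p, Finset.mem_map_of_mem f hp⟩ = ⟨p, hp⟩ := by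
        rw [Equiv.symm_apply_eq]
        rfl
      rw [h2]
      rfl
    · rw [Equiv.Perm.ofSubtype_apply_of_not_mem σ hp,
        Equiv.Perm.ofSubtype_apply_of_not_mem]
      intro h
      obtain ⟨p', hp', h3⟩ := Finset.mem_map.1 h
      rw [f.injective h3] at hp'
      exact hp hp'
  · have hr' : ∀ p, f p ≠ r := fun p hp => hr ⟨p, hp⟩
    rw [hy' _ r hr', Function.comp_apply, Equiv.Perm.ofSubtype_apply_of_not_mem]
    intro h
    obtain ⟨p', _, h3⟩ := Finset.mem_map.1 h
    exact hr' p' h3

end transport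

variable {n : ℕ}

/-- The functional `P ↦ T(ξ^q P_1, …, ξ^q P_N)`. -/
noncomputable def mulT {N : ℕ} (q : ℕ) (ξ : MvPolynomial (Fin n) ℂ)
    (T : MultilinearMap ℂ (fun _ : Fin N => MvPolynomial (Fin n) ℂ) ℂ) :
    MultilinearMap ℂ (fun _ : Fin N => MvPolynomial (Fin n) ℂ) ℂ :=
  T.compLinearMap (fun _ => LinearMap.mulLeft ℂ (ξ ^ q))

lemma mulT_apply {N : ℕ} (q : ℕ) (ξ : MvPolynomial (Fin n) ℂ)
    (T : MultilinearMap ℂ (fun _ : Fin N => MvPolynomial (Fin n) ℂ) ℂ)
    (P : Fin N → MvPolynomial (Fin n) ℂ) : mulT q ξ T P = T (fun i => ξ ^ q * P i) := rfl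

/-- The symmetrisation property passes to `mulT`. -/
lemma symZ_mulT {N b q M : ℕ} (T : MultilinearMap ℂ (fun _ : Fin N => MvPolynomial (Fin n) ℂ) ℂ)
    (hS : SymZ M (fun w : Fin N × Fin (b + q) → Fin n => wd T w))
    (ξ : MvPolynomial (Fin n) ℂ) (hξ : ξ ∈ linS n) :
    SymZ M (fun w : Fin N × Fin b → Fin n => wd (mulT q ξ T) w) := by
  classical
  intro P hP w
  -- a linear functional in each slot
  let Φ : MultilinearMap ℂ (fun _ : Fin N => MvPolynomial (Fin n) ℂ) ℂ :=
    ∑ σ : Equiv.Perm {p // p ∈ P}, T.compLinearMap (fun i => LinearMap.mulRight ℂ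
      (∏ j, (X ((w ∘ Equiv.Perm.ofSubtype σ) (i, j)) : MvPolynomial (Fin n) ℂ)))
  have hΦ : ∀ Q, Φ Q = ∑ σ : Equiv.Perm {p // p ∈ P}, T (fun i => Q i *
      ∏ j, (X ((w ∘ Equiv.Perm.ofSubtype σ) (i, j)) : MvPolynomial (Fin n) ℂ)) := by
    intro Q
    simp only [Φ, _root_.sum_apply, MultilinearMap.compLinearMap_apply,
      LinearMap.mulRight_apply]
  have h0 : Φ (fun _ => ξ ^ q) = 0 := by
    apply multilinear_zero_of_span Φ
      (Set.range (fun c : Fin q → Fin n => ∏ j, (X (c j) : MvPolynomial (Fin n) ℂ)))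
    · intro u hu
      choose c hc using hu
      rw [hΦ]
      -- extended words
      let W : Fin N × Fin (b + q) → Fin n :=
        fun p => Fin.append (fun j => w (p.1, j)) (c p.1) p.2
      let f : Fin N × Fin b ↪ Fin N × Fin (b + q) :=
        ⟨fun p => (p.1, Fin.castAdd q p.2), by
          intro p p' h
          simp only [Prod.mk.injEq] at h
          exact Prod.ext h.1 (Fin.castAdd_injective b q h.2)⟩
      have h1 := hS.comap M f P hP W
        (fun σ p => Fin.append (fun j => w (σ (p.1, j))) (c p.1) p.2)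
        (by
          intro σ p
          change Fin.append (fun j => w (σ (p.1, j))) (c p.1) (Fin.castAdd q p.2) =
            Fin.append (fun j => w ((σ p).1, j)) (c (σ p).1) (Fin.castAdd q (σ p).2)
          rw [Fin.append_left, Fin.append_left])
        (by
          intro σ r hr
          obtain ⟨i, j⟩ := r
          refine Fin.addCases (fun j' hr => ?_) (fun j' _ => ?_) j hr
          · exact absurd rfl (hr (i, j'))
          · simp only [W, Fin.append_right])
      rw [← h1]
      apply Finset.sum_congr rfl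
      intro σ _
      rw [wd]
      congr 1
      funext i
      rw [Fin.prod_univ_add]
      simp only [Fin.append_left, Fin.append_right, Function.comp_apply]
      rw [mul_comm, ← hc i]
    · intro _
      exact span_pow_eq _ _ (Submodule.pow_mem_pow (linS n) hξ q)
  rw [hΦ] at h0
  exact h0

/-- **Flat shapes, odd `a`**, for functionals. -/
theorem odd_T {c q : ℕ} (h : FlatT c q (c + 1) n)
    (T : MultilinearMap ℂ (fun _ : Fin (c + 1) => MvPolynomial (Fin n) ℂ) ℂ) (hT : IsSymm T)
    (hpow : ∀ G ∈ linS n ^ (c + 1), T (fun _ => G ^ q) = 0)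
    (hS : SymZ ((q + 1) * c) (fun w : Fin (c + 1) × Fin (q * (c + 1)) → Fin n => wd T w))
    (P : Fin (c + 1) → MvPolynomial (Fin n) ℂ) (hP : ∀ i, P i ∈ linS n ^ (q * (c + 1))) :
    T P = 0 := by
  apply claimA (linS n) T (fun _ => q * (c + 1)) (fun _ => q) ?_ ?_ P hP
  · intro j
    rw [Finset.sum_const, smul_eq_mul, mul_comm, Fin.card_Iic]
    exact Nat.mul_le_mul le_rfl (by have := j.is_lt; omega)
  · intro ξ hξ Q hQ
    have hw := h (mulT q ξ T)
      (by
        intro τ R
        exact hT τ (fun i => ξ ^ q * R i))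
      (by
        intro G hG
        rw [mulT_apply]
        have h1 := hpow (ξ * G) (by
          rw [pow_succ']
          exact Submodule.mul_mem_mul hξ hG)
        rw [← h1]
        congr 1
        funext _
        rw [mul_pow])
      (symZ_mulT T hS ξ hξ)
    have h2 : ∀ i, Q i ∈ linS n ^ (q * c) := by
      intro i
      have h3 := hQ i
      have h4 : q * (c + 1) - q = q * c := by rw [Nat.mul_succ]; omega
      rwa [h4] at h3
    have h5 : mulT q ξ T Q = 0 := by
      apply multilinear_zero_of_span (mulT q ξ T)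
        (Set.range (fun d : Fin (q * c) → Fin n => ∏ j, (X (d j) : MvPolynomial (Fin n) ℂ)))
      · intro u hu
        choose d hd using hu
        rw [← hw (fun p => d p.1 p.2), wd]
        congr 1
        funext i
        exact (hd i).symm
      · intro i
        exact span_pow_eq _ _ (h2 i)
    exact h5

/-- The symmetrisation property of highest weight vectors of weight `lam ≤ M`. -/
lemma symZ_formOf {a b M : ℕ} (lam : Fin n → ℕ) (hlam : ∀ i, lam i ≤ M)
    (l : (Fin a → Fin b → (Fin n → ℂ)) →₀ ℂ) (hx : elOf l ∈ hwSpace lam (plethAct a b n)) :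
    SymZ M (fun w : Fin a × Fin b → Fin n => wd (formOf l) w) := by
  classical
  intro P hP w
  let e : Fin a × Fin b ≃ Fin (a * b) := finProdFinEquiv
  have h1 : SymZ M (fun w : Fin (a * b) → Fin n => H858.wf l (fun p => w (e p))) := by
    intro P hP w
    exact H858.wf_symP e lam hlam l hx P hP w
  have h2 := h1.comap M e.toEmbedding P hP (fun r => w (e.symm r))
    (fun σ r => w (σ (e.symm r)))
    (by
      intro σ p
      simp only [Equiv.coe_toEmbedding, Equiv.symm_apply_apply])
    (by
      intro σ r hr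
      exact absurd (by simp) (hr (e.symm r)))
  rw [← h2]
  apply Finset.sum_congr rfl
  intro σ _
  simp only [Equiv.symm_apply_apply]
  rfl

/-- **Flat shapes, odd `a = c + 1`**: injectivity of the power map. -/
theorem odd_inj {c q : ℕ} (h : FlatT c q (c + 1) n) (lam : Fin n → ℕ)
    (hlam : ∀ i, lam i ≤ (q + 1) * c)
    (x : Sym[ℂ]^(c + 1) (Sym[ℂ]^(q * (c + 1)) (Fin n → ℂ)))
    (hx : x ∈ hwSpace lam (plethAct (c + 1) (q * (c + 1)) n))
    (h0 : powMap (c + 1) q (Fin n → ℂ) x = 0) : x = 0 := by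
  obtain ⟨l, rfl⟩ := exists_elOf x
  exact elOf_eq_zero l (odd_T h (formOf l) (formOf_symm l)
    (fun G hG => formOf_pow l h0 G hG) (symZ_formOf lam hlam l hx))

end Vale.Agent.P181.FLAT.H190
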