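import Vale.Agent.P181.FLAT.H190.Odd
import Vale.Agent.P181.FLAT.H302.Final
import Vale.Agent.P181.FLAT.H604.PeelA

set_option autoImplicit false

/-!
# P181, FLAT for odd `a`: final form
-/

open scoped TensorProduct

namespace Vale.Agent.P181.FLAT.H190

open Vale.Agent.P181 Vale.Agent.P181.H280 Vale.Agent.P181.H867 MvPolynomial

theorem peelStmt : PeelStmt :=
  fun U Z hU q N hZ Ω hΩU hΩ T hT h => H604.peelA U Z hU q N hZ Ω hΩU hΩ T hT h

/-- The flat theorem in power form for all functionals. -/
theorem flatT {c q : ℕ} (hc : Even c) (hq : 1 ≤ q) (N n : ℕ) : FlatT c q N n := by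
  classical
  intro T hT h hS w
  have e : Fin N × Fin (q * c) ≃ Fin (N * (q * c)) := finProdFinEquiv
  have h1 := H487.words (M := (q + 1) * c) (fun w : Fin (N * (q * c)) → Fin n =>
    wd T (fun p => w (e p)))
    (by
      intro P hP w
      have h2 := hS.comap _ e.symm.toEmbedding P hP (fun p => w (e p))
        (fun σ p => w (σ (e p)))
        (by
          intro σ p
          simp only [Equiv.coe_toEmbedding, Equiv.apply_symm_apply])
        (by
          intro σ r hr
          exact absurd (by simp) (hr (e r)))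
      exact h2)
    (by
      intro κ w
      have h2 := antisymm_zero lefStmt peelStmt polc ext (L := (q + 1) * c) rfl hc hq T
        hT h (fun p => w (e p)) (fun p => κ (e p))
      rw [← h2]
      refine Fintype.sum_equiv ((Equiv.permCongr e.symm).subtypeEquiv ?_) _ _ ?_
      · intro σ
        constructor
        · intro hσ
          funext p
          have := congrFun hσ (e p)
          simpa using this
        · intro hσ
          funext p
          have := congrFun hσ (e.symm p)
          simpa using this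
      · intro σ
        congr 1
        · simp [Equiv.subtypeEquiv]
        · rw [wd, xw]
          congr 1
          funext i
          apply Finset.prod_congr rfl
          intro j _
          simp [Equiv.subtypeEquiv])
  have h3 := congrFun h1 (fun p => w (e.symm p))
  simpa using h3

/-- **Flat shapes, odd `a`**: `b = q * a`, `lam i ≤ (q + 1) * (a - 1)`. -/
theorem odd_flat {a q n : ℕ} (ha : Odd a) (hq : 1 ≤ q) (lam : Fin n → ℕ)
    (hlam : ∀ i, lam i ≤ (q + 1) * (a - 1)) :
    (∀ x ∈ hwSpace lam (plethAct a (q * a) n), powMap a q (Fin n → ℂ) x = 0 → x = 0) ∧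
    plethMult a (q * a) n lam ≤ plethMult (q * a) a n lam := by
  obtain ⟨c, rfl⟩ : ∃ c, a = c + 1 := ⟨a - 1, by have := ha.pos; omega⟩
  have hc : Even c := by
    have := ha
    rwa [Nat.odd_add_one, Nat.not_odd_iff_even] at this
  have hlam' : ∀ i, lam i ≤ (q + 1) * c := hlam
  have h1 : ∀ x ∈ hwSpace lam (plethAct (c + 1) (q * (c + 1)) n),
      powMap (c + 1) q (Fin n → ℂ) x = 0 → x = 0 :=
    fun x hx h0 => odd_inj (flatT hc hq (c + 1) n) lam hlam' x hx h0
  exact ⟨h1, finrank_le_of_inj (powMap (c + 1) q (Fin n → ℂ)) _ _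
    (fun x hx => powMap_hwSpace lam x hx) h1⟩

/-- **Flat shapes**: `b = q * a`, every `a`, `lam i ≤ (q + 1) * (2 * (a / 2))`. -/
theorem flat_all {a q n : ℕ} (hq : 1 ≤ q) (lam : Fin n → ℕ)
    (hlam : ∀ i, lam i ≤ (q + 1) * (2 * (a / 2))) :
    (∀ x ∈ hwSpace lam (plethAct a (q * a) n), powMap a q (Fin n → ℂ) x = 0 → x = 0) ∧
    plethMult a (q * a) n lam ≤ plethMult (q * a) a n lam := by
  rcases Nat.even_or_odd a with ha | ha
  · have h2 : 2 * (a / 2) = a := Nat.two_mul_div_two_of_even ha
    rw [h2] at hlam
    have h1 : ∀ x ∈ hwSpace lam (plethAct a (q * a) n),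
        powMap a q (Fin n → ℂ) x = 0 → x = 0 := by
      intro x hx h0
      obtain ⟨l, rfl⟩ := exists_elOf x
      exact elOf_eq_zero l (formsVanish peelStmt a q a n hq ha lam hlam l hx
        (fun G hG => formOf_pow l h0 G hG))
    exact ⟨h1, finrank_le_of_inj (powMap a q (Fin n → ℂ)) _ _
      (fun x hx => powMap_hwSpace lam x hx) h1⟩
  · have h2 : 2 * (a / 2) = a - 1 := by
      obtain ⟨k, rfl⟩ := ha
      omega
    rw [h2] at hlam
    exact odd_flat ha hq lam hlam

end Vale.Agent.P181.FLAT.H190
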