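import Vale.Agent.P181.FLAT.H190.OddFin

set_option autoImplicit false

/-!
# P181, FLAT for odd degree, `N` slots (strengthened form)
-/

open scoped TensorProduct

namespace Vale.Agent.P181.FLAT.H190

open Vale.Agent.P181 Vale.Agent.P181.H280 Vale.Agent.P181.H867 MvPolynomial

variable {n : ℕ}

/-- **Flat shapes, forms of odd degree `c + 1`, `N ≤ c + 1` slots**, for functionals. -/
theorem oddG_T {c q N : ℕ} (hN : N ≤ c + 1) (h : FlatT c q N n)
    (T : MultilinearMap ℂ (fun _ : Fin N => MvPolynomial (Fin n) ℂ) ℂ) (hT : IsSymm T)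
    (hpow : ∀ G ∈ linS n ^ (c + 1), T (fun _ => G ^ q) = 0)
    (hS : SymZ ((q + 1) * c) (fun w : Fin N × Fin (q * (c + 1)) → Fin n => wd T w))
    (P : Fin N → MvPolynomial (Fin n) ℂ) (hP : ∀ i, P i ∈ linS n ^ (q * (c + 1))) :
    T P = 0 := by
  apply claimA (linS n) T (fun _ => q * (c + 1)) (fun _ => q) ?_ ?_ P hP
  · intro j
    rw [Finset.sum_const, smul_eq_mul, mul_comm, Fin.card_Iic]
    exact Nat.mul_le_mul le_rfl (by have := j.is_lt; omega)
  · intro ξ hξ Q hQ
    have hw := h (mulT q ξ T)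
      (by
        intro τ R
        exact hT τ (fun i => ξ ^ q * R i))
      (by
        intro G hG
        rw [mulT_apply]
        have h1 := hpow (ξ * G) (by
          rw [pow_succ']
          exact Submodule.mul_mem_mul hξ hG)
        rw [← h1]
        congr 1
        funext _
        rw [mul_pow])
      (symZ_mulT T hS ξ hξ)
    have h2 : ∀ i, Q i ∈ linS n ^ (q * c) := by
      intro i
      have h3 := hQ i
      have h4 : q * (c + 1) - q = q * c := by rw [Nat.mul_succ]; omega
      rwa [h4] at h3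
    have h5 : mulT q ξ T Q = 0 := by
      apply multilinear_zero_of_span (mulT q ξ T)
        (Set.range (fun d : Fin (q * c) → Fin n => ∏ j, (X (d j) : MvPolynomial (Fin n) ℂ)))
      · intro u hu
        choose d hd using hu
        rw [← hw (fun p => d p.1 p.2), wd]
        congr 1
        funext i
        exact (hd i).symm
      · intro i
        exact span_pow_eq _ _ (h2 i)
    exact h5

/-- The forms of highest weight vectors, odd degree `c`, `d ≤ c` slots. -/
theorem formsVanish_odd {d q c : ℕ} (hc : Odd c) (hd : d ≤ c) (hq : 1 ≤ q) (lam : Fin n → ℕ)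
    (hlam : ∀ i, lam i ≤ (q + 1) * (c - 1)) : FormsVanishG d q c n lam := by
  obtain ⟨c, rfl⟩ : ∃ c', c = c' + 1 := ⟨c - 1, by have := hc.pos; omega⟩
  have hc' : Even c := by
    have := hc
    rwa [Nat.odd_add_one, Nat.not_odd_iff_even] at this
  intro l hx h P hP
  exact oddG_T hd (flatT hc' hq d n) (formOf l) (formOf_symm l) h
    (symZ_formOf lam hlam l hx) P hP

/-- **Flat shapes, strengthened (Vessenes) form**: `Sym^d(Sym^{qc})` against `Sym^{qd}(Sym^c)`;
`c` even: every `d`, `lam i ≤ (q + 1) * c`; `c` odd: `d ≤ c`, `lam i ≤ (q + 1) * (c - 1)`. -/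
theorem flatG_all (d q c n : ℕ) (hq : 1 ≤ q) (lam : Fin n → ℕ)
    (h : (Even c ∧ ∀ i, lam i ≤ (q + 1) * c) ∨
      (Odd c ∧ d ≤ c ∧ ∀ i, lam i ≤ (q + 1) * (c - 1))) :
    (∀ x ∈ hwSpace lam (plethAct d (q * c) n), powMapG d q c (Fin n → ℂ) x = 0 → x = 0) ∧
    plethMult d (q * c) n lam ≤ plethMult (q * d) c n lam := by
  have hF : FormsVanishG d q c n lam := by
    rcases h with ⟨h1, h2⟩ | ⟨h1, h2, h3⟩
    · exact formsVanish peelStmt d q c n hq h1 lam h2
    · exact formsVanish_odd h1 h2 hq lam h3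
  exact ⟨fun x hx h0 => powMapG_injOn_of d q c n lam hF x hx h0,
    plethMultG_le_of d q c n lam hF⟩

end Vale.Agent.P181.FLAT.H190
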